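import Crest.Agent.X212.Plb19.Main
import Crest.Agent.X212.Prf6.Main
import Crest.Agent.X212.Mcg32.Lk
import Crest.Agent.X212.Arx49.Dual_Mg

-- ▼ part X212/Coc52/Plb
section

/-!
# Row 212, PERF (helper52): the quarter turn corrected to an element of `K` (any genus)

`cls_T`, `turn`, and the first part of `plumb2` repeat the proofs of `Plb19/Main` (helper19), keeping
track of the class.
-/

set_option autoImplicit false
set_option linter.unusedSectionVars false
noncomputable section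
open Set Filter Topology Function Complex
open scoped ContDiff Manifold

namespace Crest.Agent.X212.Coc52
open Prf6 Plb19

section
variable {M : Type*} [TopologicalSpace M] [ChartedSpace ℂ M] [IsManifold IC ∞ M] [T2Space M]
  {o : Or M} {U U' d d' d'' : Set M} {c c₁ : ℝ} {A B Θ : ℂ → M}

/-- `c` is moved to `d` by an element of `K` supported in `U` -/
def MvK (o : Or M) (U c d : Set M) : Prop := ∃ k ∈ K o, Near k Uᶜ ∧ k '' c = d

theorem MvK.refl (o : Or M) (U d : Set M) : MvK o U d d := ⟨1, one_mem _, near_one _, by simp⟩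

theorem MvK.symm (h : MvK o U d d') : MvK o U d' d := by
  obtain ⟨k, h1, h2, rfl⟩ := h
  exact ⟨k⁻¹, inv_mem h1, h2.inv, by simp [image_image]⟩

theorem MvK.trans (h : MvK o U d d') (h' : MvK o U d' d'') : MvK o U d d'' := by
  obtain ⟨k, h1, h2, rfl⟩ := h
  obtain ⟨g, k1, k2, rfl⟩ := h'
  exact ⟨g * k, mul_mem k1 h1, k2.mul h2, by simp [image_image]⟩

theorem MvK.mono (h : MvK o U d d') (s : U ⊆ U') : MvK o U' d d' := by
  obtain ⟨k, h1, h2, h3⟩ := h
  exact ⟨k, h1, h2.mono (compl_subset_compl.2 s), h3⟩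

theorem MvK.mv (h : MvK o U d d') : Mv o U d d' := by
  obtain ⟨k, h1, h2, h3⟩ := h
  exact ⟨k, K_le h1, h2, h3, fun _ => h1⟩

theorem mvK_iso {φ : ℝ → Equiv.Perm M} (h : Iso o φ) (h' : NearI φ Uᶜ) (d : Set M) :
    MvK o U d (φ 1 '' d) := ⟨φ 1, h.one_mem, h'.near 1, rfl⟩

/-- correction of the class by twists along a parallel curve -/
theorem fix_cls (hA : An o A) (rA : range A ⊆ U) {k : Equiv.Perm M} (hk : k ∈ G o) (hU : Near k Uᶜ)
    {n : ℤ} (h : cls o k = cls o (tw A) ^ n) :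
    ∃ k' ∈ K o, Near k' Uᶜ ∧ ∀ z : ℂ, z.im ≤ 1 → k' (A z) = k (A z) := by
  let l : ℝ → ℝ := fun r => (-n : ℤ) * Real.smoothTransition (r - 1)
  have hl : ContDiff ℝ ∞ l := contDiff_const.mul (Real.smoothTransition.contDiff.comp (by fun_prop))
  have l0 : ∀ r ≤ 1, l r = (0 : ℤ) := fun r hr => by
    simp [l, Real.smoothTransition.zero_of_nonpos (sub_nonpos.2 hr)]
  have l1 : ∀ r > 2, l r = (-n : ℤ) := fun r hr => by
    simp [l, Real.smoothTransition.one_of_one_le (show 1 ≤ r - 1 by linarith)]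
  have li : ∀ r ∉ Icc (1 : ℝ) 2, ∃ m : ℤ, l r = m := fun r hr =>
    (not_and_or.1 hr).elim (fun a => ⟨_, l0 r (not_le.1 a).le⟩) fun a => ⟨_, l1 r (not_le.1 a)⟩
  have m := hA.sh_mem hl li
  refine ⟨k * tr A (sh l), (cls_eq_one (mul_mem hk m)).1 ?_, hU.mul (tr_near hA.1 (hA.wd_sh l)
    (isCompact_bx 1 2) (hA.out fun z hz => (li _ hz).imp fun m e => by simp [e])
    (disjoint_compl_right_iff_subset.2 ((image_subset_range _ _).trans rA))), fun z hz => ?_⟩
  · rw [cls_mul hk m, h, hA.cls_sh hl (fun r hr => l0 r hr.le) l1, sub_zero, zpow_neg, mul_inv_cancel]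
  · rw [Equiv.Perm.mul_apply, (hA.wd_sh l).apply, sh_apply, l0 _ hz]
    simp

variable (X : Tc o U c A B Θ)
include X

open Tc

/-- the transplanted shear is a twist up to isotopy -/
theorem cls_T {h : ℝ → Equiv.Perm ℂ} {l : ℝ → ℝ}
    (s : Shr c₁ h l) (hc : c₁ < c) : cls o (T Θ c (h 1)) = cls o (tw A) := by
  have hm : ∀ t, T Θ c (h t) ∈ G o := fun t => X.mem (s.ad t) hc (s.mem t)
  have li : ∀ r, c₁ ≤ |r| → ∃ n : ℤ, l r = n := fun r hr =>
    (le_abs'.1 hr).elim (fun a => ⟨0, by simp [s.l0 r a]⟩) fun a => ⟨1, by simp [s.l1 r a]⟩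
  have out : ∀ x, (∀ z : ℂ, |z.im| < c → A z ≠ x) → T Θ c (h 0) x = x := fun x hx => by
    by_cases hr : x ∈ Θ '' W c
    · obtain ⟨z, hz, rfl⟩ := hr
      rw [(X.spec (s.ad 0) hc.le).1 z hz, eq_comm, X.eq hz ((s.ad 0).maps hc.le hz)]
      have h1 : c ≤ dz z.im := not_lt.1 fun a => hx (z - round z.im * I) (by simpa [dz] using a)
        (X.a _ _ (by simpa [dz] using a) ⟨0, round z.im, by simp⟩).symm
      obtain ⟨n, e⟩ := li _ (hc.le.trans h1)
      exact ⟨round z.im + n, 0, by rw [s.zero, e]; simp; ring⟩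
    · exact (X.spec (s.ad 0) hc.le).2 x hr
  have e : tr A (sh l) = T Θ c (h 0) := by
    refine (X.hA.wd_sh l).ext (fun z => ?_) fun x hx => out x fun z _ e => hx ⟨z, e⟩
    by_cases hz : |z.im| < c
    · rw [← X.a z z hz (La.refl _), (X.spec (s.ad 0) hc.le).1 z (Or.inl ((dz_le_abs _).trans_lt hz)),
        s.zero, round_of_abs (hz.trans X.hi)]
      exact X.a _ _ (by simpa using hz) ⟨0, 0, by simp⟩
    · obtain ⟨n, e⟩ := li _ (hc.le.trans (not_lt.1 hz))
      rw [out _ fun w hw e => hz (X.hA.im_eq e ▸ hw), sh_apply, e, ofReal_intCast, X.hA.per]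
  rw [cls_path (X.sm s.cd s.ad hc) hm 1 0, ← e,
    X.hA.cls_sh s.lcd (a := -c₁) (b := c₁) (m := 0) (n := 1) (fun r hr => by simp [s.l0 r hr.le])
      (fun r hr => by simp [s.l1 r hr.le]), sub_zero, zpow_one]

/-- the quarter turn in the stretched charts -/
theorem turn {h : ℝ → Equiv.Perm ℂ} {l : ℝ → ℝ} (s : Shr c₁ h l) (hc : c₁ < c) :
    ∃ k ∈ G o, Near k Uᶜ ∧ cls o k = (cls o (tw A) * cls o (tw B) * cls o (tw A))⁻¹ ∧
      ∀ z : ℂ, |z.im| < 1 / 8 → k (A z) = B z ∧ k (B z) = A (-z) := by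
  have a := s.ad 1
  have lo := s.lo
  set k₁ := T Θ c (h 1)
  set k₂ := T (fun z => Θ (I * z)) c (h 1)
  have key : ∀ z : ℂ, dz z.im < 1 / 8 ∨ dz z.re < 1 / 8 → (k₁ * k₂ * k₁) (Θ z) = Θ (-I * z) := by
    intro z hz
    have w0 : z ∈ W c := W_mono (by linarith) hz
    have e1 : h 1 z = z + z.im + 1 / 2 := s.one z (hz.elim (fun a => Or.inr (by linarith))
      fun a => Or.inl (by linarith))
    have w1 : -I * h 1 z ∈ W c := W_rot.1 (by rw [II']; exact a.maps hc.le w0)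
    have r1 : (h 1 z).re = z.re + z.im + 1 / 2 := by simp [e1]
    have i1 : (h 1 z).im = z.im := by simp [e1]
    have t1 : dz (z.re + z.im + 1 / 2) ≤ 1 / 2 - dz z.im + dz z.re := by
      have := dz_add (z.im + 1 / 2) z.re
      rw [show z.im + 1 / 2 + z.re = z.re + z.im + 1 / 2 by ring] at this
      linarith [dz_half z.im]
    have t2 : dz (z.re + z.im + 1 / 2) ≤ 1 / 2 - dz z.re + dz z.im := by
      have := dz_add (z.re + 1 / 2) z.im
      rw [add_right_comm] at this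
      linarith [dz_half z.re]
    have e2 : I * h 1 (-I * h 1 z) = ⟨z.re + z.im + 1 / 2, -z.re⟩ := by
      rw [s.one _ ?_]
      · exact Complex.ext (by simp [r1]) (by simp [r1, i1]; ring)
      · simp only [neg_mul, neg_re, mul_re, I_re, I_im, neg_im, mul_im, zero_mul, one_mul, zero_sub,
          neg_neg, zero_add, dz_neg, r1, i1]
        by_cases h1 : dz z.im ≤ 1 / 4
        · exact Or.inl h1
        · exact Or.inr (by rcases hz with h2 | h2 <;> linarith)
    have w2 : I * h 1 (-I * h 1 z) ∈ W c := W_rot.2 (a.maps hc.le w1)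
    have e3 : h 1 (I * h 1 (-I * h 1 z)) = -I * z + 1 := by
      rw [e2, s.one _ ?_]
      · exact Complex.ext (by simp; ring) (by simp)
      · simp only [dz_neg]
        by_cases h1 : dz z.re ≤ 3 / 8
        · exact Or.inr h1
        · exact Or.inl (by rcases hz with h2 | h2 <;> linarith)
    have s2 := (X.swap.spec a hc.le).1 _ w1
    rw [II'] at s2
    show k₁ (k₂ (k₁ (Θ z))) = _
    rw [(X.spec a hc.le).1 z w0, s2, (X.spec a hc.le).1 _ w2, X.eq (a.maps hc.le w2)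
      (W_rot.1 (by rw [II']; exact w0)), e3]
    exact ⟨-1, 0, by simp⟩
  have m1 := X.mem a hc (s.mem 1)
  have m2 := X.swap.mem a hc (s.mem 1)
  refine ⟨(k₁ * k₂ * k₁)⁻¹, inv_mem (mul_mem (mul_mem m1 m2) m1),
    (((X.near a hc).mul (X.swap.near a hc)).mul (X.near a hc)).inv, by
      rw [cls_inv (mul_mem (mul_mem m1 m2) m1), cls_mul (mul_mem m1 m2) m1, cls_mul m1 m2,
        cls_T X s hc, cls_T X.swap s hc], fun z hz => ?_⟩
  have hz' : |z.im| < c := by linarith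
  have d := (dz_le_abs _).trans_lt hz
  rw [Equiv.Perm.inv_eq_iff_eq, Equiv.Perm.inv_eq_iff_eq, ← X.b z _ hz' (La.refl _),
    ← X.a z _ hz' (La.refl _), ← X.a (-z) _ (by simpa using hz') (La.refl _),
    key (I * z) (Or.inr (by simpa [dz_neg] using d)), key (-z) (Or.inl (by simpa [dz_neg] using d))]
  simp [II]

end

/-- PLUMB, strong form -/
def Plumb2 : Prop := ∀ (X : Sf) (U : Set X.R) (A B : ℂ → X.R) (δ : ℝ),
  Nf X.o U A B 1 δ (fun _ => 0) (fun _ => 0) (fun _ => 1) →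
  (∃ k ∈ K X.o, Near k Uᶜ ∧ ∃ δ' > 0, ∀ z : ℂ, |z.im| < δ' → k (A z) = B z) ∧
    ∃ k ∈ K X.o, Near k Uᶜ ∧ ∃ δ' > 0, ∀ z : ℂ, |z.im| < δ' → k (B z) = A (-z)

/-- LK, strong form -/
def Lk2 : Prop := ∀ (X : Sf) (U : Set X.R) (A B : ℂ → X.R), IsPreconnected (univ : Set X.R) →
  IsOpen U → An X.o A → An X.o B → core A ⊆ U → core B ⊆ U → IsPreconnected (U \ core A) →
  IsPreconnected (U \ core B) → MvK X.o U (core A) (core B)

theorem lk_of (h : Lk2) : Lk := fun X U A B h1 h2 h3 h4 h5 h6 h7 h8 =>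
  (h X U A B h1 h2 h3 h4 h5 h6 h7 h8).mv

theorem plumb2 : Plumb2 := by
  intro X U A B δ N
  obtain ⟨c₁, h, l, s⟩ := exists_shr
  have lo := s.lo
  have hi := s.hi
  obtain ⟨c, c1, c2⟩ := exists_between hi
  have c0 : 0 < c := by linarith
  obtain ⟨a, a0, a1, a2⟩ : ∃ a : ℝ, 0 < a ∧ a ≤ 1 ∧ a ≤ δ :=
    ⟨min 1 δ, lt_min one_pos N.pos, min_le_left _ _, min_le_right _ _⟩
  obtain ⟨Φ, P1, P2, P3, P4, P5⟩ := exists_Phi c0 c2 a0 a1
  have P6 : ∀ z, ∀ n : ℤ, Φ (z + n) = Φ z + n := fun z n => by simpa using P2 z n 0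
  have an : ∀ D, An X.o D → An X.o (D ∘ Φ) := fun D hD => ⟨fun z => (hD.1 _).comp (P1 z),
    fun z w => (hD.wd P6 z w).symm.trans (hD.2 z w)⟩
  have sm : ∀ z : ℂ, |z.im| < c → |(Φ z).im| < δ := fun z hz => by
    rw [P4 z hz.le, abs_mul, abs_of_pos a0]
    nlinarith [abs_nonneg z.im]
  have box : ∀ z : ℂ, |z.re| < δ → |z.im| < δ → B z = A (I * z) := fun z h1 h2 => by
    simpa using N.box 0 z h1 h2
  obtain ⟨Θ, Y⟩ := exists_tc (an A N.hA) (an B N.hB) ((range_comp_subset_range _ _).trans N.rA)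
    ((range_comp_subset_range _ _).trans N.rB) c0 c2 (fun z h1 h2 => by
      have := sm (I * z) (by simpa using h1)
      rw [P3] at this
      rw [comp_apply, comp_apply, P3, box _ (by simpa using this) (sm z h2)])
    fun z w hz hw e => by
      obtain ⟨-, m, hm⟩ := N.only _ _ (sm z hz) (sm w hw) e
      rw [comp_apply, comp_apply, ← N.hB.per (Φ w) (-m),
        box _ (by simpa [sub_eq_add_neg] using hm) (by simpa using sm w hw), N.hA.2] at e
      obtain ⟨n, e⟩ := e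
      exact ⟨n, m, Φ.injective (by rw [P3, P2]; push_cast at e; linear_combination e)⟩
  obtain ⟨k, k1, k2, k3, k4⟩ := turn Y s c1
  have e : cls X.o (tw (B ∘ Φ)) = cls X.o (tw (A ∘ Φ)) := by
    rw [← Y.hA.cls_tw_comp k1]
    exact cls_tw_germ Y.hB (Y.hA.comp k1) (by norm_num : (0 : ℝ) < 1 / 8) fun z hz => (k4 z hz).1.symm
  have e3 : cls X.o k = cls X.o (tw (A ∘ Φ)) ^ (-3 : ℤ) := by
    rw [k3, e, zpow_neg, zpow_ofNat, pow_three']
  obtain ⟨g, g1, g2, g3⟩ := fix_cls Y.hA Y.rA k1 k2 e3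
  obtain ⟨g', g1', g2', g3'⟩ := fix_cls Y.hB Y.rB k1 k2 (e ▸ e3)
  refine ⟨⟨g, g1, g2, a * (1 / 8), by positivity, fun z hz => ?_⟩,
    g', g1', g2', a * (1 / 8), by positivity, fun z hz => ?_⟩ <;>
  obtain ⟨w, rfl⟩ := Φ.surjective z <;>
  have hw := P5 w _ (by norm_num) (by linarith) hz
  · exact (g3 w (by linarith [le_abs_self w.im])).trans (k4 w hw).1
  · have := (g3' w (by linarith [le_abs_self w.im])).trans (k4 w hw).2
    rwa [comp_apply, comp_apply, ← II, P3, P3, II] at this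

end Crest.Agent.X212.Coc52
end
end

-- ▼ part X212/Coc52/Coc

/-!
# Row 212, PERF (helper52): change of coordinates in `K` (any genus), handles

`mvK_one` … `lk2` repeat `Mcg32/Lk` (helper32) with `MvK` in place of `Mv`.
-/

set_option autoImplicit false
set_option linter.unusedSectionVars false
noncomputable section
open Set Filter Topology Function Complex
open scoped ContDiff Manifold

namespace Crest.Agent.X212.Coc52
open Prf6 Mcg32

section
variable {M : Type*} [TopologicalSpace M] [ChartedSpace ℂ M] [IsManifold IC ∞ M] [T2Space M]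
  {o : Or M} {U : Set M} {A B C : ℂ → M}

/-- an element of `K` supported in `U` carries the germ of `A` along its core to that of `B` -/
def EqK (o : Or M) (U : Set M) (A B : ℂ → M) : Prop :=
  ∃ k ∈ K o, Near k Uᶜ ∧ ∃ δ > 0, ∀ z : ℂ, |z.im| < δ → k (A z) = B z

theorem EqK.symm (h : EqK o U A B) : EqK o U B A := by
  obtain ⟨k, h1, h2, δ, h3, h4⟩ := h
  exact ⟨k⁻¹, inv_mem h1, h2.inv, δ, h3, fun z hz => by rw [← h4 z hz]; simp⟩

theorem EqK.trans (h : EqK o U A B) (h' : EqK o U B C) : EqK o U A C := by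
  obtain ⟨k, h1, h2, δ, h3, h4⟩ := h
  obtain ⟨g, k1, k2, δ', k3, k4⟩ := h'
  exact ⟨g * k, mul_mem k1 h1, k2.mul h2, min δ δ', lt_min h3 k3, fun z hz => by
    rw [Equiv.Perm.mul_apply, h4 z (hz.trans_le (min_le_left _ _)),
      k4 z (hz.trans_le (min_le_right _ _))]⟩

theorem EqK.neg (h : EqK o U A B) : EqK o U (fun z => A (-z)) fun z => B (-z) := by
  obtain ⟨k, h1, h2, δ, h3, h4⟩ := h
  exact ⟨k, h1, h2, δ, h3, fun z hz => h4 _ (by simpa using hz)⟩

theorem EqK.mvK (h : EqK o U A B) : MvK o U (core A) (core B) := by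
  obtain ⟨k, h1, h2, δ, h3, h4⟩ := h
  refine ⟨k, h1, h2, ?_⟩
  rw [← core_comp]
  unfold core
  congr 1
  exact funext fun s => h4 s (by simpa using h3)

theorem near_maps {k : Equiv.Perm M} (h : Near k Uᶜ) {x : M} (hx : x ∈ U) : k x ∈ U := by
  by_contra hk
  exact hk (by rwa [k.injective (h.fix hk)])

/-- normal form of one crossing -/
theorem nf_norm {δ : ℝ} {t θ ε : Fin 1 → ℝ} (h : Nf o U A B 1 δ t θ ε) :
    Nf o U (fun z => A (θ 0 + ε 0 * z)) (fun z => B (t 0 + (1 : ℝ) * z)) 1 δ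
      (fun _ => 0) (fun _ => 0) (fun _ => 1) where
  hA := an_aff h.hA _ (h.sgn 0)
  hB := an_aff h.hB _ (Or.inl rfl)
  rA := by rintro _ ⟨z, rfl⟩; exact h.rA ⟨_, rfl⟩
  rB := by rintro _ ⟨z, rfl⟩; exact h.rB ⟨_, rfl⟩
  pos := h.pos
  sgn := fun _ => Or.inl rfl
  box := fun j z h1 h2 => by
    have := h.box 0 z h1 h2
    simpa [mul_assoc] using this
  only := fun z w h1 h2 e => by
    obtain ⟨j, m, hm⟩ := h.only _ _ (by rcases h.sgn 0 with e | e <;> simpa [e] using h1)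
      (by simpa using h2) e
    refine ⟨0, m, ?_⟩
    rw [Subsingleton.elim j 0] at hm
    simpa using hm
  sept := fun i j m hm => ⟨Subsingleton.elim _ _, (h.sept 0 0 m (by simpa using hm)).2⟩
  sepθ := fun i j m hm => ⟨Subsingleton.elim _ _, (h.sept 0 0 m (by simpa using hm)).2⟩

end

section
variable {X : Sf} {U : Set X.R} {A B : ℂ → X.R}

theorem mvK_one {δ : ℝ} {t θ ε : Fin 1 → ℝ} (h : Nf X.o U A B 1 δ t θ ε) :
    MvK X.o U (core A) (core B) := by
  have := EqK.mvK (plumb2 X U _ _ δ (nf_norm h)).1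
  rwa [core_aff A (θ 0) (h.sgn 0), core_aff B (t 0) (Or.inl rfl)] at this

theorem mvK_tv (hU : IsOpen U) {γ : ℝ → X.R} (hA : An X.o A) (hAU : core A ⊆ U) (hγ : Cv γ)
    (hr : range γ ⊆ U) {t : ℝ} (ht : Tv A γ t) (ho : ∀ s, γ s ∈ core A → ∃ m : ℤ, s = t + m) :
    MvK X.o U (core A) (range γ) := by
  obtain ⟨A', B, δ, θ, ε, h, h1, h2⟩ := Tub3.nf1 X U A γ 1 (fun _ => t) hU hA hAU hγ hr
    (fun _ _ _ _ => Subsingleton.elim _ _) (fun _ => ht) fun s hs => ⟨0, ho s hs⟩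
  have := mvK_one h
  rwa [Prf6.core_congr h1, Mcg32.core_congr h2] at this

theorem mvK_disj (hU : IsOpen U) (hA : An X.o A) (hB : An X.o B) (hAU : core A ⊆ U)
    (hBU : core B ⊆ U) (hd : Disjoint (core A) (core B)) (cA : IsPreconnected (U \ core A))
    (cB : IsPreconnected (U \ core B)) : MvK X.o U (core A) (core B) := by
  obtain ⟨γ, hγ, hr, t, t', h1, h2, h3, h4⟩ := Arx49.dual2 X U A B hU hA hB hAU hBU hd cA cB
  exact (mvK_tv hU hA hAU hγ hr h2 h1).trans (mvK_tv hU hB hBU hγ hr h4 h3).symm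

theorem mvK_ind (su : Surg) (hU : IsOpen U) (n : ℕ) :
    ∀ (A : ℂ → X.R) (γ : ℝ → X.R) (t : Fin n → ℝ), An X.o A → core A ⊆ U → Cv γ → range γ ⊆ U →
      (∀ i j, ∀ m : ℤ, t i = t j + m → i = j) → (∀ j, Tv A γ (t j)) →
      (∀ s, γ s ∈ core A → ∃ j, ∃ m : ℤ, s = t j + m) → IsPreconnected (U \ core A) →
      IsPreconnected (U \ range γ) → MvK X.o U (core A) (range γ) := by
  induction n using Nat.strong_induction_on with
  | _ n ih =>
  intro A γ t hA hAU hγ hr hi ht ho cA cγ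
  have dj : ∀ (B : ℂ → X.R) (β : ℝ → X.R), An X.o B → core B ⊆ U → Cv β → range β ⊆ U →
      IsPreconnected (U \ core B) → IsPreconnected (U \ range β) → Disjoint (range β) (core B) →
      MvK X.o U (core B) (range β) := fun B β hB hBU hβ hβU cB cβ hd => by
    obtain ⟨C, hC, hCU, e⟩ := exists_an Tub3.tub X hβ hU hβU
    rw [← e] at cβ hd hβU ⊢
    exact mvK_disj hU hB hC hBU hβU hd.symm cB cβ
  rcases Nat.lt_or_ge n 2 with hn | hn
  · obtain rfl | rfl : n = 0 ∨ n = 1 := by omega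
    · refine dj A γ hA hAU hγ hr cA cγ (disjoint_left.2 ?_)
      rintro _ ⟨s, rfl⟩ hs
      obtain ⟨j, -⟩ := ho s hs
      exact j.elim0
    · refine mvK_tv hU hA hAU hγ hr (ht 0) fun s hs => ?_
      obtain ⟨j, h⟩ := ho s hs
      rwa [Subsingleton.elim j 0] at h
  obtain ⟨A', B, δ, θ, ε, h, h1, h2⟩ := Tub3.nf1 X U A γ n t hU hA hAU hγ hr hi ht ho
  have eA : core A' = core A := Prf6.core_congr h1
  rw [← eA] at cA hAU ⊢
  rw [← Mcg32.core_congr h2] at cγ hr ⊢
  obtain ⟨β, hβ, hβU, cβ, ⟨n', hn', s, s1, s2, s3⟩, h4⟩ := su X U A' B n δ t θ ε hU h hn cγ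
  refine (ih n' hn' A' β s h.hA hAU hβ hβU s1 s2 s3 cA cβ).trans (MvK.symm ?_)
  rcases h4 with h4 | ⟨u, h4, h5⟩
  · exact dj B β h.hB hr hβ hβU cγ cβ h4
  · exact mvK_tv hU h.hB hr hβ hβU h4 h5

/-- strong Lickorish transitivity (no connectedness of the surface is used) -/
theorem mvK_of (su : Surg) (hU : IsOpen U) (hA : An X.o A) (hB : An X.o B) (hAU : core A ⊆ U)
    (hBU : core B ⊆ U) (cA : IsPreconnected (U \ core A)) (cB : IsPreconnected (U \ core B)) :
    MvK X.o U (core A) (core B) := by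
  obtain ⟨δ, hδ, h1⟩ := conn_par hU hA hAU cA
  obtain ⟨r, hr, h2, h3⟩ := Tub3.nf0 X A _ δ hA (cv_core hB) hδ
  obtain ⟨h4, h5⟩ := h1 r hr
  obtain ⟨s, s1, s2, s3⟩ := enum (cv_core hB) h3
  refine MvK.trans ?_ (mvK_ind su hU _ _ _ s (hA.shift (r * I)) h4 (cv_core hB) hBU s1
    (fun j => h2 _ (s2 j)) s3 h5 cB)
  by_cases h0 : r = 0
  · subst h0
    simpa using MvK.refl X.o U (core A)
  · refine mvK_disj hU hA (hA.shift (r * I)) hAU h4 (disjoint_left.2 ?_) cA h5
    rintro _ ⟨t, rfl⟩ ⟨u, e⟩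
    exact h0 (by simpa using an_im hA e)

theorem eqK_or (hU : IsOpen U) (hA : An X.o A) (hB : An X.o B) (hAU : core A ⊆ U)
    (e : core A = core B) : EqK X.o U A B ∨ EqK X.o U A fun z => B (-z) := by
  obtain ⟨φ, h1, h2, ε, hε, δ, hδ, h3⟩ := Lad50.Co.coll X A B U hA hB e hU hAU
  rcases hε with rfl | rfl
  · exact Or.inl ⟨φ 1, h1.one_mem, h2.near 1, δ, hδ, fun z hz => by simpa using h3 z hz⟩
  · exact Or.inr ⟨φ 1, h1.one_mem, h2.near 1, δ, hδ, fun z hz => by simpa using h3 z hz⟩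

/-- a handle on the core of `A` -/
theorem exists_nf (hU : IsOpen U) (hA : An X.o A) (hAU : core A ⊆ U)
    (cA : IsPreconnected (U \ core A)) : ∃ A' B δ,
      Nf X.o U A' B 1 δ (fun _ => 0) (fun _ => 0) (fun _ => 1) ∧ core A = core A' := by
  obtain ⟨γ, g1, g2, g3, c, hc, g4⟩ := Arx49.arcx X U (core A) A hU (hU.sdiff (an_cpt hA).isClosed)
    cA (hA.1 0) (hAU ⟨0, by simp⟩) (Eventually.of_forall fun z => an_mem hA)
  have d : HasDerivAt (fun t : ℝ => (c * t * I : ℂ)) (c * 1 * I) 0 :=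
    ((hasDerivAt_id (0 : ℝ)).ofReal_comp.const_mul (c : ℂ)).mul_const I
  obtain ⟨A', B, δ, θ, ε, h, h1, -⟩ := Tub3.nf1 X U A γ 1 (fun _ => 0) hU hA hAU g1 g2
    (fun _ _ _ _ => Subsingleton.elim _ _)
    (fun _ => ⟨fun t => c * t * I, ((contDiff_const.mul ofRealCLM.contDiff).mul
      contDiff_const).contDiffAt, g4, by simp, by rw [d.deriv]; simpa using hc.ne'⟩)
    fun s hs => ⟨0, by simpa using g3 s hs⟩
  exact ⟨_, _, δ, nf_norm h, ((core_aff A' (θ 0) (h.sgn 0)).trans (Prf6.core_congr h1)).symm⟩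

/-- the half turn of a non-separating annulus -/
theorem flip (hU : IsOpen U) (hA : An X.o A) (hAU : core A ⊆ U)
    (cA : IsPreconnected (U \ core A)) : EqK X.o U A fun z => A (-z) := by
  obtain ⟨A', B, δ, h, e⟩ := exists_nf hU hA hAU cA
  have f : EqK X.o U A' fun z => A' (-z) :=
    EqK.trans (plumb2 X U _ _ δ h).1 (plumb2 X U _ _ δ h).2
  rcases eqK_or hU hA h.hA hAU e with g | g
  · exact (g.trans f).trans g.neg.symm
  · refine (g.trans f.symm).trans (EqK.symm ?_)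
    simpa using g.neg

theorem eqK_core (hU : IsOpen U) (hA : An X.o A) (hB : An X.o B) (hAU : core A ⊆ U)
    (cA : IsPreconnected (U \ core A)) (e : core A = core B) : EqK X.o U A B :=
  (eqK_or hU hA hB hAU e).elim id fun g => g.trans (flip hU hB (e ▸ hAU) (e ▸ cA)).symm

/-- COC: change of coordinates in `K` -/
theorem coc (su : Surg) (hU : IsOpen U) (hA : An X.o A) (hB : An X.o B) (hAU : core A ⊆ U)
    (hBU : core B ⊆ U) (cA : IsPreconnected (U \ core A)) (cB : IsPreconnected (U \ core B)) :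
    EqK X.o U A B := by
  obtain ⟨k, k1, k2, e⟩ := mvK_of su hU hA hB hAU hBU cA cB
  rw [← core_comp] at e
  exact EqK.trans ⟨k, k1, k2, 1, one_pos, fun _ _ => rfl⟩
    (eqK_core hU hB (hA.comp (K_le k1)) hBU cB e.symm).symm

/-- HD: a non-separating annulus is part of a handle, same chart -/
theorem hd (hU : IsOpen U) (hA : An X.o A) (hAU : core A ⊆ U)
    (cA : IsPreconnected (U \ core A)) : ∃ B δ, range B ⊆ U ∧
      Nf X.o univ A B 1 δ (fun _ => 0) (fun _ => 0) (fun _ => 1) := by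
  obtain ⟨A', B, δ, h, e⟩ := exists_nf hU hA hAU cA
  obtain ⟨k, k1, k2, δ', h0, k3⟩ := (eqK_core hU hA h.hA hAU cA e).symm
  have l1 := min_le_left δ δ'
  have l2 := min_le_right δ δ'
  refine ⟨k ∘ B, min δ δ', ?_, hA, h.hB.comp (K_le k1), subset_univ _, subset_univ _,
    lt_min h.pos h0, h.sgn, fun j z h1 h2 => ?_, fun z w h1 h2 e => ?_,
    fun i j m hm => h.sept i j m (by linarith), fun i j m hm => h.sepθ i j m (by linarith)⟩
  · rintro _ ⟨z, rfl⟩
    exact near_maps k2 (h.rB ⟨z, rfl⟩)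
  · rw [comp_apply, h.box j z (by linarith) (by linarith), k3]
    simpa using h1.trans_le l2
  · rw [← k3 z (by linarith), comp_apply, k.injective.eq_iff] at e
    obtain ⟨j, m, hm⟩ := h.only z w (by linarith) (by linarith) e
    have b := h.box 0 (w - m) (by simpa using hm) (by simpa using h2.trans_le l1)
    have p := h.hB.per (w - m) m
    simp only [ofReal_zero, zero_add, ofReal_one, one_mul, sub_add_cancel] at b p
    have := h.hA.im_eq (e.trans (p.trans b))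
    refine ⟨j, m, ?_⟩
    rw [this] at h1
    simpa using h1

end

theorem lk2 (su : Surg) : Lk2 := fun _ _ _ _ _ h2 h3 h4 h5 h6 h7 h8 =>
  mvK_of su h2 h3 h4 h5 h6 h7 h8

end Crest.Agent.X212.Coc52
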